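import Vale.Agent.P299.H720.Montel
import Vale.Agent.P097.H407.Hol
import Vale.Agent.P097D.Defs

/-!
# P097F.L: Montel's theorem for maps into the lower half plane, along an ultrafilter
-/

set_option linter.all false

noncomputable section

namespace Vale.Agent.P097F.L

open Set Metric Filter Topology Complex Vale.Agent.P097D

variable {E : Type*} [NormedAddCommGroup E] [NormedSpace ℂ E]

/-- eventually holomorphic with values in the lower half plane near every point of `O` -/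
def HP (l : Filter ℕ) (Y : ℕ → E → ℂ) (O : Set E) : Prop :=
  ∀ p ∈ O, ∃ ρ > 0, ∀ᶠ j in l,
    DifferentiableOn ℂ (Y j) (ball p ρ) ∧ MapsTo (Y j) (ball p ρ) (Lo 0)

/-- continuous convergence on `O` -/
def CV (l : Filter ℕ) (Y : ℕ → E → ℂ) (A : E → ℂ) (O : Set E) : Prop :=
  ∀ p ∈ O, ∀ q : ℕ → E, Tendsto q l (𝓝 p) → Tendsto (fun j => Y j (q j)) l (𝓝 (A p))

theorem HP.mono {l : Filter ℕ} {Y : ℕ → E → ℂ} {O O' : Set E} (h : HP l Y O) (s : O' ⊆ O) :
    HP l Y O' := fun p hp => h p (s hp)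

theorem CV.mono {l : Filter ℕ} {Y : ℕ → E → ℂ} {A : E → ℂ} {O O' : Set E} (h : CV l Y A O)
    (s : O' ⊆ O) : CV l Y A O' := fun p hp => h p (s hp)

theorem cay_ne {y : ℂ} (h : y.im < 0) : y - I ≠ 0 := fun e => by
  have := congrArg im e
  simp at this
  linarith

theorem cay_lt {y : ℂ} (h : y.im < 0) : ‖(y + I) / (y - I)‖ < 1 := by
  rw [norm_div, div_lt_one (norm_pos_iff.2 (cay_ne h))]
  refine lt_of_pow_lt_pow_left₀ 2 (norm_nonneg _) ?_
  rw [Complex.sq_norm, Complex.sq_norm, normSq_apply, normSq_apply]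
  simp
  nlinarith

theorem cay_inv {y : ℂ} (h : y.im < 0) :
    I * ((y + I) / (y - I) + 1) / ((y + I) / (y - I) - 1) = y := by
  have n := cay_ne h
  have e : (y + I) / (y - I) - 1 = 2 * I / (y - I) := by
    field_simp
    ring
  rw [e]
  field_simp
  ring

theorem cay_one {b : ℂ} (h : ‖b‖ < 1) : b - 1 ≠ 0 := fun e => by
  rw [sub_eq_zero.1 e] at h
  simp at h

theorem cay_im {b : ℂ} (h : ‖b‖ < 1) : (I * (b + 1) / (b - 1)).im < 0 := by
  have n : 0 < normSq (b - 1) := normSq_pos.2 (cay_one h)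
  have q : b.re * b.re + b.im * b.im < 1 := by
    rw [← normSq_apply, ← Complex.sq_norm]
    nlinarith [norm_nonneg b]
  rw [div_im, ← sub_div]
  refine div_neg_of_neg_of_pos ?_ n
  simp
  nlinarith

theorem dOn_div {f k : E → ℂ} {s : Set E} (hf : DifferentiableOn ℂ f s)
    (hk : DifferentiableOn ℂ k s) (h : ∀ p ∈ s, k p ≠ 0) :
    DifferentiableOn ℂ (fun p => f p / k p) s := by
  simp only [div_eq_mul_inv]
  exact hf.mul (hk.inv h)

/-- **Montel** with one anchor point -/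
theorem mon [FiniteDimensional ℂ E] (𝒰 : Ultrafilter ℕ) {Y : ℕ → E → ℂ} {O : Set E}
    (hO : IsOpen O) (hc : IsPreconnected O) (H : HP 𝒰 Y O) {p₀ : E} (m : p₀ ∈ O) {y₀ : ℂ}
    (h₀ : y₀.im < 0) (a : Tendsto (fun j => Y j p₀) 𝒰 (𝓝 y₀)) :
    ∃ A, AnalyticOnNhd ℂ A O ∧ MapsTo A O (Lo 0) ∧ CV 𝒰 Y A O := by
  haveI : ProperSpace E := FiniteDimensional.proper ℂ E
  obtain ⟨b, db, -, cb⟩ := P299.H720.montel_full 𝒰
    (f := fun j p => (Y j p + I) / (Y j p - I)) hO fun p hp => by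
      obtain ⟨ρ, ρ0, e⟩ := H p hp
      exact ⟨ρ, ρ0, 1, e.mono fun j k => ⟨dOn_div (k.1.add_const I) (k.1.sub_const I)
        (fun q hq => cay_ne (k.2 hq)), fun q hq => (cay_lt (k.2 hq)).le⟩⟩
  have ev : ∀ p ∈ O, ∀ q : ℕ → E, Tendsto q 𝒰 (𝓝 p) → ∀ᶠ j in (𝒰 : Filter ℕ),
      (Y j (q j)).im < 0 := fun p hp q hq => by
    obtain ⟨ρ, ρ0, e⟩ := H p hp
    filter_upwards [e, hq.eventually (ball_mem_nhds p ρ0)] with j k1 k2 using k1.2 k2
  have le : ∀ p ∈ O, ‖b p‖ ≤ 1 := fun p hp =>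
    le_of_tendsto (cb p hp _ tendsto_const_nhds).norm
      ((ev p hp _ tendsto_const_nhds).mono fun j k => (cay_lt k).le)
  have b0 : b p₀ = (y₀ + I) / (y₀ - I) := tendsto_nhds_unique (cb p₀ m _ tendsto_const_nhds)
    ((a.add_const I).div (a.sub_const I) (cay_ne h₀))
  have lt : ∀ p ∈ O, ‖b p‖ < 1 := fun p hp => by
    refine (le p hp).lt_of_ne fun e => ?_
    have := Complex.norm_eqOn_of_isPreconnected_of_isMaxOn hc hO db hp
      (fun q hq => show ‖b q‖ ≤ ‖b p‖ from e ▸ le q hq) m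
    have k : ‖b p₀‖ = ‖b p‖ := this
    rw [e, b0] at k
    exact (cay_lt h₀).ne k
  refine ⟨fun p => I * (b p + 1) / (b p - 1), P097.Hol.analyticOnNhd_of_differentiableOn hO
    (dOn_div ((db.add_const 1).const_mul I) (db.sub_const 1) fun p hp => cay_one (lt p hp)),
    fun p hp => cay_im (lt p hp), fun p hp q hq => ?_⟩
  have t := cb p hp q hq
  exact (((t.add_const 1).const_mul I).div (t.sub_const 1) (cay_one (lt p hp))).congr'
    ((ev p hp q hq).mono fun j k => cay_inv k)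

/-- the anchor from a compact set -/
theorem mon' [FiniteDimensional ℂ E] (𝒰 : Ultrafilter ℕ) {Y : ℕ → E → ℂ} {O : Set E}
    (hO : IsOpen O) (hc : IsPreconnected O) (H : HP 𝒰 Y O) {p₀ : E} (m : p₀ ∈ O) {x : ℂ} {B : ℝ}
    (hB : x.im + B < 0) (a : ∀ᶠ j in (𝒰 : Filter ℕ), ‖Y j p₀ - x‖ ≤ B) :
    ∃ A, AnalyticOnNhd ℂ A O ∧ MapsTo A O (Lo 0) ∧ CV 𝒰 Y A O := by
  obtain ⟨y, hy, t⟩ := (isCompact_closedBall x B).ultrafilter_le_nhds (𝒰.map fun j => Y j p₀)
    (le_principal_iff.2 (a.mono fun j k => mem_closedBall_iff_norm.2 k))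
  refine mon 𝒰 hO hc H m (y₀ := y) ?_ t
  have := (le_abs_self _).trans ((abs_im_le_norm (y - x)).trans (mem_closedBall_iff_norm.1 hy))
  rw [sub_im] at this
  linarith

end Vale.Agent.P097F.L
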