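import Vale.Agent.P097F.L.Leaf

/-!
# P097F.L: the limits of the deep charts
-/

set_option linter.all false

noncomputable section

namespace Vale.Agent.P097F.L

open Set Metric Filter Topology Complex Vale.Agent.P097T Vale.Agent.P097Mo
open Vale.Agent.P097D (Lo)
open Vale.Agent.P097W (Envl)
open Vale.Agent.P097F.D (Law vv sg)

variable {X : DD} {a : ℝ → ℝ} {N j : ℕ} {M : ℝ} {𝒰 : Ultrafilter ℕ} {u s : ℕ → ℝ} {g : ℂ → ℂ}

theorem gw_lim (Wn : Win X a j M 𝒰 u s g) {y : ℂ} (hy : y ∈ Lo 0) :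
    Tendsto (fun n => X.gw (u n) (s n) y) 𝒰 (𝓝 (g y)) := by
  refine (Wn.seq.cc y hy _ tendsto_const_nhds).congr fun n => ?_
  have dn : (X.η (u n) : ℂ) ≠ 0 := ofReal_ne_zero.2 (Wn.pk n).2.1.ne'
  have e : deriv (X.θw (u n) (s n)) y = X.η (u n) * deriv X.θ (X.wy (u n) (s n) y) :=
    congrFun (deriv_aff X.θ (s n + X.r * I) (X.η (u n))) y
  simp only [e, DD.gw, DD.ep, ofReal_div]
  field_simp

/-- the limit curve is small deep below a good place -/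
theorem g_small (E : Envl X.η X.u₀ X.p N a) (Wn : Win X a j M 𝒰 u s g) (hj : 3 ≤ j) (hN : 2 ≤ N)
    {k : ℤ} (P : X.Pl a j M 𝒰 u s k) {e : ℝ} (e0 : 0 < e) :
    ∃ t₀ : ℝ, ∀ y : ℂ, |y.re - k| ≤ 1 → y.im ≤ -t₀ → ‖g y‖ ≤ e := by
  refine ⟨max 1 (max (4 / e ^ 2) (256 * |M| / e ^ 6 + 1)), fun y h1 h2 => ?_⟩
  set t := -y.im with ht
  have t1 : 1 ≤ t := by linarith [le_max_left 1 (max (4 / e ^ 2) (256 * |M| / e ^ 6 + 1))]
  have t2 : 4 / e ^ 2 ≤ t := by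
    linarith [le_max_right 1 (max (4 / e ^ 2) (256 * |M| / e ^ 6 + 1)),
      le_max_left (4 / e ^ 2) (256 * |M| / e ^ 6 + 1)]
  have t3 : 256 * |M| / e ^ 6 < t := by
    linarith [le_max_right 1 (max (4 / e ^ 2) (256 * |M| / e ^ 6 + 1)),
      le_max_right (4 / e ^ 2) (256 * |M| / e ^ 6 + 1)]
  have t0 : 0 < t := by linarith
  have l : Tendsto (fun n => X.η (u n) * t) 𝒰 (𝓝 0) := by simpa using (η_lim Wn).mul_const t
  refine le_of_tendsto (gw_lim Wn (show y.im < 0 by linarith)).norm ?_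
  filter_upwards [P, l.eventually (gt_mem_nhds X.dat.cur.rpos)] with n G k1
  obtain ⟨m, d0, pk⟩ := Wn.pk n
  set d := X.η (u n) with hd
  by_contra hc
  push Not at hc
  have e1 : X.r - (X.wy (u n) (s n) y).im = d * t := by rw [wy_im, ht]; ring
  have e2 : (X.wy (u n) (s n) y).re - (s n + d * k) = d * (y.re - k) := by rw [wy_re]; ring
  have G := G (X.wy (u n) (s n) y) (by linarith) (by linarith [mul_pos d0 t0])
  rw [e1, e2] at G
  have b1 : 1 ≤ √t := Real.one_le_sqrt.2 t1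
  have al := a_le E hN d0 b1
  rw [Real.sq_sqrt t0.le, mul_comm t d] at al
  have a0 : 0 < a (d * t) := one_pos.trans_le (E.one _)
  have a1 : 0 < a d := one_pos.trans_le (E.one _)
  have u0 := m.1
  have q1 : max (d * t / d) (d / (d * t)) * (1 + |d * (y.re - k)| / (d * t)) ≤ 2 * t := by
    have r1 : d * t / d = t := by field_simp
    have r2 : d / (d * t) ≤ t := by
      rw [div_le_iff₀ (by positivity)]
      nlinarith [mul_le_mul t1 t1 zero_le_one t0.le]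
    have r3 : |d * (y.re - k)| / (d * t) ≤ 1 := by
      rw [abs_mul, abs_of_pos d0, div_le_one (by positivity)]
      gcongr
      linarith
    rw [r1, max_eq_left r2]
    nlinarith
  have q2 : e ^ 2 * t / 4 ≤
      P097M.Gs (deriv X.θ) X.Q (X.wy (u n) (s n) y) * (d * t) ^ 2 / a (d * t) ^ 2 := by
    have n1 : e ≤ u n * ‖deriv X.θ (X.wy (u n) (s n) y)‖ := by
      have := hc.le
      rwa [DD.gw, norm_mul, norm_real, Real.norm_eq_abs, abs_of_pos u0] at this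
    set γ := ‖deriv X.θ (X.wy (u n) (s n) y)‖ with hγ
    have n2 : e * a d ≤ 2 * d * γ := by
      calc e * a d ≤ u n * γ * a d := by gcongr
        _ = a d * u n * γ := by ring
        _ ≤ _ := by gcongr
    have n3 : a (d * t) ^ 2 ≤ t * a d ^ 2 := by
      calc _ ≤ (√t * a d) ^ 2 := by gcongr
        _ = _ := by rw [mul_pow, Real.sq_sqrt t0.le]
    rw [le_div_iff₀ (by positivity)]
    calc e ^ 2 * t / 4 * a (d * t) ^ 2 ≤ e ^ 2 * t / 4 * (t * a d ^ 2) := by gcongr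
      _ = (e * a d) ^ 2 * t ^ 2 / 4 := by ring
      _ ≤ (2 * d * γ) ^ 2 * t ^ 2 / 4 := by gcongr
      _ = γ ^ 2 * (d * t) ^ 2 := by ring
      _ ≤ _ := by
        gcongr
        exact le_add_of_nonneg_right (norm_nonneg _)
  have q3 : 1 ≤ e ^ 2 * t / 4 := by
    rw [div_le_iff₀ (by positivity)] at t2
    linarith
  have q4 : (e ^ 2 * t / 4) ^ 3 ≤ |M| * (2 * t) ^ 2 :=
    calc _ ≤ (e ^ 2 * t / 4) ^ j := pow_le_pow_right₀ q3 hj
      _ ≤ _ := pow_le_pow_left₀ (by positivity) q2 j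
      _ ≤ _ := G
      _ ≤ |M| * _ := by gcongr; exact le_abs_self M
      _ ≤ _ := by gcongr
  rw [div_lt_iff₀ (by positivity)] at t3
  nlinarith [mul_lt_mul_of_pos_right t3 (pow_pos t0 2)]

theorem ud_real {W₁ W : ℝ} (h : (W : ℂ) ∈ Ud W₁) : W₁ / 2 < W ∧ W < 7 / 2 * W₁ := by
  have e : (W : ℂ) - 2 * W₁ = ((W - 2 * W₁ : ℝ) : ℂ) := by push_cast; ring
  rw [Ud, mem_ball, dist_eq_norm, e, norm_real, Real.norm_eq_abs, abs_lt] at h
  constructor <;> linarith [h.1, h.2]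

/-- the limits of the deep charts -/
theorem base_of (E : Envl X.η X.u₀ X.p N a) (Wn : Win X a j M 𝒰 u s g) (hj : 3 ≤ j) (hN : 2 ≤ N)
    {W₁ : ℝ} (w0 : 100 ≤ W₁) {k : ℤ} (P : X.Pl a j M 𝒰 u s k)
    (TR : ∀ R t₁ : ℝ, 0 < R → 0 < t₁ → (W₁ ^ 3) ^ 4 * (1 + R) ≤ t₁ ^ 4 →
      ∃ Z, Trk X 𝒰 u s W₁ k R t₁ Z) : Base X 𝒰 u s g W₁ (W₁ ^ 3) k := by
  intro R t₁ R0 t0 h
  have T1 : 1 ≤ W₁ ^ 3 := one_le_pow₀ (by linarith)
  have Tt : W₁ ^ 3 ≤ t₁ := le_of_pow_le_pow_left₀ (n := 4) (by norm_num) t0.le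
    ((le_mul_of_one_le_right (by positivity) (by linarith)).trans h)
  obtain ⟨Z, T⟩ := TR R t₁ R0 t0 h
  have oO : IsOpen (Ud W₁ ×ˢ Cl k R t₁) := isOpen_ball.prod (cl_open _ _ _)
  have cO : IsPreconnected (Ud W₁ ×ˢ Cl k R t₁) :=
    ((convex_ball _ _).prod (cl_convex _ _ _)).isPreconnected
  have bd : ∀ q ∈ Ud W₁ ×ˢ Cl k R t₁, ∀ᶠ n in (𝒰 : Filter ℕ), ‖Z n q - q.2‖ ≤ 1 := fun q hq => by
    filter_upwards [T, bx_ex Wn k R t₁ (-q.2.im + 1)] with n k1 k2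
    exact k1.2.1 q ⟨hq.1, k2 _ hq.2 (by linarith)⟩
  have H : HP 𝒰 Z (Ud W₁ ×ˢ Cl k R t₁) := fun q hq => by
    obtain ⟨ρ, ρ0, sb⟩ := Metric.isOpen_iff.1 oO q hq
    refine ⟨ρ, ρ0, ?_⟩
    filter_upwards [T, bx_ex Wn k R t₁ (-q.2.im + ρ)] with n k1 k2
    have mb : ∀ z ∈ ball q ρ, z ∈ Ud W₁ ×ˢ Bx k R t₁ (X.r / (2 * X.η (u n))) := fun z hz => by
      refine ⟨(sb hz).1, k2 _ (sb hz).2 ?_⟩
      have := abs_lt.1 ((abs_im_le_norm _).trans_lt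
        ((norm_snd_le (z - q)).trans_lt (mem_ball_iff_norm.1 hz)))
      simp only [Prod.snd_sub, sub_im] at this
      linarith [this.1]
    refine ⟨fun z hz => (k1.1 z (mb z hz)).differentiableAt.differentiableWithinAt, fun z hz => ?_⟩
    have := (le_abs_self _).trans ((abs_im_le_norm _).trans (k1.2.1 z (mb z hz)))
    rw [sub_im] at this
    show (Z n z).im < 0
    linarith [(sb hz).2.2.2]
  have m₀ : ((2 * W₁ : ℝ) : ℂ) ∈ Ud W₁ := mem_Ud (by linarith) (by linarith) (by linarith)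
  have q₀ : (((2 * W₁ : ℝ) : ℂ), (⟨k, -(t₁ + 1)⟩ : ℂ)) ∈ Ud W₁ ×ˢ Cl k R t₁ :=
    ⟨m₀, by show k - R < k; linarith, by show (k : ℝ) < k + R; linarith,
      by show -(t₁ + 1) < -t₁; linarith⟩
  obtain ⟨Z₀, aZ, mZ, cZ⟩ := mon' 𝒰 oO cO H q₀ (B := 1) (by show -(t₁ + 1) + 1 < 0; linarith)
    (bd _ q₀)
  refine ⟨Z, Z₀, T, ⟨aZ, mZ, ?_⟩, fun q hq =>
    le_of_tendsto ((cZ q hq _ tendsto_const_nhds).sub_const q.2).norm (bd q hq), cZ⟩
  obtain ⟨y₀, y1, y2⟩ := Wn.ne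
  have z := nz_of (lo_open 0) (lo_convex 0).isPreconnected Wn.seq.dg y1 y2
  -- real steps
  have re : ∀ W : ℝ, (W : ℂ) ∈ Ud W₁ → ∀ x ∈ Cl k R t₁,
      Law g W (Z₀ (W, x)) (vv Z₀ (W, x)) := by
    intro W mW x hx
    obtain ⟨w1, w2⟩ := ud_real mW
    have W0 : 0 < W := by linarith
    have tv : Tendsto (fun _ : ℕ => W) 𝒰 (𝓝 W) := tendsto_const_nhds
    have hp : ∀ p' > W₁ ^ 3, ∀ᶠ n in (𝒰 : Filter ℕ), X.pw (u n) W ≤ p' := fun p' h' =>
      (uv_mem Wn W0 tv).mono fun n m => (pw_le E hN (Wn.pk n) (by linarith) m.2).trans (by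
        have : W ^ 2 ≤ (7 / 2 * W₁) ^ 2 := by gcongr
        nlinarith [sq_nonneg W₁])
    obtain ⟨Y, f⟩ := zl_lim Wn R0 T W0 mW tv hp
    have Nr : Nrm g Y (Lo (-W₁ ^ 3)) := by
      refine nrm_of (lo_open 0) (lo_open _) Wn.seq.dg f.dY f.mem z fun e e0 => ?_
      obtain ⟨t₀, ht₀⟩ := g_small E Wn hj hN P (half_pos e0)
      set ρ := 2 / e with hρ
      have ρ0 : 0 < ρ := by positivity
      obtain ⟨Z', T'⟩ := TR (2 * ρ) (W₁ ^ 3 * (1 + 2 * ρ)) (by positivity) (by positivity) (by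
        rw [mul_pow]
        gcongr
        exact le_self_pow₀ (by linarith) (by norm_num))
      have t2 : W₁ ^ 3 ≤ W₁ ^ 3 * (1 + 2 * ρ) := le_mul_of_one_le_right (by positivity) (by linarith)
      set t := W₁ ^ 3 * (1 + 2 * ρ) + 2 * ρ + |t₀| + 1 with ht
      have sb : ∀ z ∈ ball (⟨k, -t⟩ : ℂ) (2 * ρ), z ∈ Cl k (2 * ρ) (W₁ ^ 3 * (1 + 2 * ρ)) ∧
          z.im < -W₁ ^ 3 := fun z hz => by
        have a1 := abs_lt.1 ((abs_re_le_norm _).trans_lt (mem_ball_iff_norm.1 hz))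
        have a2 := abs_lt.1 ((abs_im_le_norm _).trans_lt (mem_ball_iff_norm.1 hz))
        simp only [sub_re, sub_im] at a1 a2
        exact ⟨⟨by linarith [a1.1], by linarith [a1.2], by linarith [a2.2, abs_nonneg t₀]⟩,
          by linarith [a2.2, abs_nonneg t₀]⟩
      have b : ∀ z ∈ ball (⟨k, -t⟩ : ℂ) (2 * ρ), ‖Y z - z‖ ≤ 1 := fun z hz =>
        le_of_tendsto ((f.cc z (sb z hz).2 _ tendsto_const_nhds).sub_const z).norm
          ((zl_tr Wn T' mW tv hp (sb z hz).1 (sb z hz).2).mono fun n k => k.2)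
      have c := mem_ball_self (x := (⟨k, -t⟩ : ℂ)) (show 0 < 2 * ρ by positivity)
      have a1 := (abs_re_le_norm _).trans (b _ c)
      have a2 := abs_le.1 ((abs_im_le_norm _).trans (b _ c))
      simp only [sub_re, sub_im] at a1 a2
      refine ⟨_, (sb _ c).2, (deriv_near ρ0 (f.dY.mono fun z hz => (sb z hz).2) b).trans_lt ?_,
        (ht₀ _ a1 (by linarith [a2.2, le_abs_self t₀])).trans_lt (half_lt_self e0)⟩
      rw [hρ, one_div_div]
      exact half_lt_self e0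
    obtain ⟨x₁, k1, -, k2, -⟩ := Nr 1 one_pos
    have md := modelv 𝒰 Wn.seq f (lo_convex _).isPreconnected (ne_of_Ud mW) Nr
    have lw := red_of (σ := sg) (continuous_iff_continuousAt.2 fun z => (D.Sg.an z).continuousAt)
      D.Sg.mul (lo_open 0) (lo_open _) (lo_convex _).isPreconnected Wn.seq.dg f.dY f.mem k1 k2 md
    have lo : ∀ x ∈ Cl k R t₁, x.im < -W₁ ^ 3 := fun x hx => by linarith [hx.2.2]
    have e : Y =ᶠ[𝓝 x] fun x => Z₀ (W, x) := by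
      filter_upwards [(cl_open _ _ _).mem_nhds hx] with x hx
      exact tendsto_nhds_unique (f.cc x (lo x hx) _ tendsto_const_nhds)
        ((cZ (W, x) ⟨mW, hx⟩ _ tendsto_const_nhds).congr'
          ((zl_tr Wn T mW tv hp hx (lo x hx)).mono fun n k => k.1.symm))
    have := lw x (lo x hx)
    rw [e.deriv_eq, e.self_of_nhds] at this
    exact this
  -- complex steps
  intro q hq
  have an : AnalyticOnNhd ℂ (fun w => vv Z₀ (w, q.2) ^ 3 *
      sg (vv Z₀ (w, q.2) * g (Z₀ (w, q.2)) / 2) - w ^ 3) (Ud W₁) := fun w hw =>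
    AnalyticAt.comp (g := fun p : ℂ × ℂ => vv Z₀ p ^ 3 * sg (vv Z₀ p * g (Z₀ p) / 2) - p.1 ^ 3)
      (f := fun w => (w, q.2)) (an_law Wn.seq.dg (aZ _ ⟨hw, hq.2⟩) (mZ ⟨hw, hq.2⟩))
      (analyticAt_id.prod analyticAt_const)
  have tr : Tendsto ofReal (𝓝[≠] (2 * W₁)) (𝓝[≠] ((2 * W₁ : ℝ) : ℂ)) :=
    tendsto_nhdsWithin_iff.2 ⟨(continuous_ofReal.tendsto _).mono_left nhdsWithin_le_nhds,
      eventually_mem_nhdsWithin.mono fun w hw e => hw (ofReal_injective e)⟩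
  have := an.eqOn_zero_of_preconnected_of_frequently_eq_zero (convex_ball _ _).isPreconnected m₀
    (tr.frequently ((tr.eventually (nhdsWithin_le_nhds (isOpen_ball.mem_nhds m₀))).mono
      fun w hw => sub_eq_zero.2 (re w hw q.2 hq.2)).frequently) hq.1
  exact sub_eq_zero.1 this

/-- BASE from the true charts -/
theorem baseS (TR : ∀ X : DD, ∃ j₀ : ℕ, ∀ j ≥ j₀, ∀ N ≥ j, ∀ a M 𝒰 u s g,
    Envl X.η X.u₀ X.p N a → Win X a j M 𝒰 u s g → ∃ W₂ : ℝ, ∀ W₁ ≥ W₂, ∀ k : ℤ,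
      X.Pl a j M 𝒰 u s k → ∀ R t₁ : ℝ, 0 < R → 0 < t₁ → (W₁ ^ 3) ^ 4 * (1 + R) ≤ t₁ ^ 4 →
        ∃ Z, Trk X 𝒰 u s W₁ k R t₁ Z) : Spec_BASE := by
  intro X
  obtain ⟨j₀, h⟩ := TR X
  refine ⟨max j₀ 3, fun j hj N hN a M 𝒰 u s g E Wn => ?_⟩
  obtain ⟨W₂, h⟩ := h j (le_of_max_le_left hj) N hN a M 𝒰 u s g E Wn
  have j3 := le_of_max_le_right hj
  exact ⟨max W₂ 100, fun W₁ hW k P => base_of E Wn j3 (by omega) (le_of_max_le_right hW) P
    (h W₁ (le_of_max_le_left hW) k P)⟩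

end Vale.Agent.P097F.L
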