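import Vale.Agent.P097F.L.Base
import Vale.Agent.P097F.Bs.Tr

/-!
# P097F.L: BASE closed
-/

set_option linter.all false

noncomputable section

namespace Vale.Agent.P097F.L

theorem base : Spec_BASE := baseS Bs.tr

end Vale.Agent.P097F.L
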