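import Vale.Agent.P097F.L.Lim
import Vale.Agent.P097F.D.Sel

/-!
# P097F.L: a cone of model leaves lies in the maximal domain; slopes of the obstacles
-/

set_option linter.all false

noncomputable section

namespace Vale.Agent.P097F.L

open Set Metric Filter Topology Complex Vale.Agent.P097D
open Vale.Agent.P097F.D (Rc Mx Obs)

/-- the domain over `V` under the height `φ` -/
def Un (V : Set ℂ) (α β b₀ : ℝ) (φ : ℂ → ℝ) : Set (ℂ × ℂ) :=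
  {p | p.1 ∈ V ∧ p.2 ∈ Rc α β b₀ (φ p.1)}

theorem un_open {V : Set ℂ} {α β b₀ : ℝ} {φ : ℂ → ℝ} (oV : IsOpen V) (cφ : ContinuousOn φ V) :
    IsOpen (Un V α β b₀ φ) := by
  refine isOpen_iff_mem_nhds.2 fun p ⟨h, h1, h2, h3, h4⟩ => ?_
  have c : ContinuousAt (fun q : ℂ × ℂ => φ q.1) p :=
    ContinuousAt.comp (g := φ) (cφ.continuousAt (oV.mem_nhds h)) continuousAt_fst
  have cr : ContinuousAt (fun q : ℂ × ℂ => q.2.re) p := by fun_prop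
  have ci : ContinuousAt (fun q : ℂ × ℂ => q.2.im) p := by fun_prop
  filter_upwards [continuousAt_fst.eventually (oV.mem_nhds h), cr.eventually (lt_mem_nhds h1),
    cr.eventually (gt_mem_nhds h2), ci.eventually (lt_mem_nhds h3), ci.eventually_lt c h4]
    with q k0 k1 k2 k3 k4 using ⟨k0, k1, k2, k3, k4⟩

theorem un_conn {V : Set ℂ} {α β b₀ b₁ : ℝ} {φ : ℂ → ℝ} (cV : IsPreconnected V) (lt : b₀ < b₁)
    (hφ : ∀ W ∈ V, b₁ ≤ φ W) : IsPreconnected (Un V α β b₀ φ) := by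
  have base : IsPreconnected (V ×ˢ Rc α β b₀ b₁) := cV.prod (D.rc_convex _ _ _ _).isPreconnected
  refine isPreconnected_of_forall_pair fun p hp q hq => ?_
  have sl : ∀ p ∈ Un V α β b₀ φ, IsPreconnected (({p.1} : Set ℂ) ×ˢ Rc α β b₀ (φ p.1)) ∧
      ({p.1} : Set ℂ) ×ˢ Rc α β b₀ (φ p.1) ⊆ Un V α β b₀ φ ∧
      (p.1, (⟨p.2.re, (b₀ + b₁) / 2⟩ : ℂ)) ∈ ({p.1} : Set ℂ) ×ˢ Rc α β b₀ (φ p.1) ∧
      (p.1, (⟨p.2.re, (b₀ + b₁) / 2⟩ : ℂ)) ∈ V ×ˢ Rc α β b₀ b₁ := fun p hp =>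
    ⟨isPreconnected_singleton.prod (D.rc_convex _ _ _ _).isPreconnected,
      fun q ⟨k1, k2⟩ => by
        have e : q.1 = p.1 := k1
        exact ⟨e ▸ hp.1, e ▸ k2⟩,
      ⟨rfl, hp.2.1, hp.2.2.1, by show b₀ < (b₀ + b₁) / 2; linarith,
        by show (b₀ + b₁) / 2 < φ p.1; linarith [hφ _ hp.1]⟩,
      hp.1, hp.2.1, hp.2.2.1, by show b₀ < (b₀ + b₁) / 2; linarith,
        by show (b₀ + b₁) / 2 < b₁; linarith⟩
  obtain ⟨a1, a2, a3, a4⟩ := sl p hp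
  obtain ⟨c1, c2, c3, c4⟩ := sl q hq
  refine ⟨(({p.1} : Set ℂ) ×ˢ Rc α β b₀ (φ p.1) ∪ V ×ˢ Rc α β b₀ b₁) ∪
    ({q.1} : Set ℂ) ×ˢ Rc α β b₀ (φ q.1), union_subset (union_subset a2 fun r hr =>
      ⟨hr.1, hr.2.1, hr.2.2.1, hr.2.2.2.1, hr.2.2.2.2.trans_le (hφ _ hr.1)⟩) c2,
    Or.inl (Or.inl ⟨rfl, hp.2⟩), Or.inr ⟨rfl, hq.2⟩,
    (a1.union _ a3 a4 base).union _ (Or.inr c4) c3 c1⟩

variable {E : D.Dat} {Y B : ℂ × ℂ → ℂ} {V : Set ℂ} {φ : ℂ → ℝ}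

/-- **the cone lies in the maximal domain** -/
theorem cone_om (M : Mx E Y) (oV : IsOpen V) (sV : V ⊆ E.U) (cφ : ContinuousOn φ V)
    (hφ : ∀ W ∈ V, E.b₁ < φ W) {a b : ℝ} (ha : E.α ≤ a) (hb : b ≤ E.β)
    (F : D.Fam E.g B (Un V a b E.b₀ φ))
    (e : ∀ W ∈ V, ∀ x ∈ Rc a b E.b₀ E.b₁, B (W, x) = E.A (W, x)) :
    ∀ p ∈ Un V a b E.b₀ φ, p ∈ E.Om ∧ Y p = B p := by
  intro p ⟨h, h1, h2, h3, h4⟩
  obtain ⟨t, t1, t2⟩ := exists_between (max_lt h4 (hφ _ h))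
  have oV' : IsOpen (V ∩ φ ⁻¹' Ioi t) := cφ.isOpen_inter_preimage oV isOpen_Ioi
  have base : (V ∩ φ ⁻¹' Ioi t) ×ˢ Rc a b E.b₀ E.b₁ ⊆ E.Om := fun q hq =>
    (D.om E M.ok).2.2.1 ⟨sV hq.1.1, ha.trans_lt hq.2.1, hq.2.2.1.trans_le hb, hq.2.2.2⟩
  obtain ⟨k1, k2⟩ := D.up D.om E Y B _ a b E.b₀ E.b₁ t M oV' le_rfl M.ok.lt
    ((le_max_right _ _).trans t1.le) base
    (F.mono fun q hq => ⟨hq.1.1, hq.2.1, hq.2.2.1, hq.2.2.2.1, hq.2.2.2.2.trans hq.1.2⟩)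
    (fun q hq => (e q.1 hq.1.1 q.2 hq.2).trans (M.eq q (base hq) hq.2.2.2.2).symm)
  have m : p ∈ (V ∩ φ ⁻¹' Ioi t) ×ˢ Rc a b E.b₀ t :=
    ⟨⟨h, t2⟩, h1, h2, h3, (le_max_left _ _).trans_lt t1⟩
  exact ⟨k1 m, (k2 p m).symm⟩

/-- the obstacles are not under the cone -/
theorem obs_ge {W₀ : ℂ} {T a₁ a₂ σ ρ : ℝ} {n : ℕ} {X : Fin n → ℂ → ℂ} {Φ Δ : Fin n → ℂ × ℂ → ℂ}
    (h : Obs E Y W₀ T a₁ a₂ σ ρ n X Φ Δ) (ok : E.Ok) {a b : ℝ} (ha : a ≤ a₁ - ρ) (hb : a₂ + ρ ≤ b)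
    (om : ∀ p ∈ Un V a b E.b₀ φ, p ∈ E.Om) {u : ℂ} (hu : u ∈ ball W₀ σ) (hV : u ∈ V) (c : Fin n) :
    φ u ≤ (X c u).im :=
  h.ge ok hu (fun x hx => om (u, x) ⟨hV, ha.trans_lt hx.1, hx.2.1.trans_le hb, hx.2.2⟩) c

theorem abs_der {f : ℝ → ℝ} {f' C : ℝ} (hf : HasDerivAt f f' 0)
    (h : ∀ᶠ v in 𝓝 (0 : ℝ), f 0 - C * |v| ≤ f v) : |f'| ≤ C := by
  have t := hasDerivAt_iff_tendsto_slope_left_right.1 hf
  refine abs_le.2 ⟨ge_of_tendsto t.2 ?_, le_of_tendsto t.1 ?_⟩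
  · filter_upwards [nhdsWithin_le_nhds h, self_mem_nhdsWithin] with v k (v0 : 0 < v)
    rw [slope_def_field, sub_zero, le_div_iff₀ v0]
    rw [abs_of_pos v0] at k
    linarith
  · filter_upwards [nhdsWithin_le_nhds h, self_mem_nhdsWithin] with v k (v0 : v < 0)
    rw [slope_def_field, sub_zero, div_le_iff_of_neg v0]
    rw [abs_of_neg v0] at k
    linarith

/-- the real slope of an obstacle which avoids a cone -/
theorem re_slope {X : ℂ → ℂ} {W₀ : ℂ} {C : ℝ} (a : DifferentiableAt ℂ X W₀)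
    (h : ∀ᶠ v : ℝ in 𝓝 0, (X W₀).im - C * |v| ≤ (X (W₀ + v * I)).im) :
    |(deriv X W₀).re| ≤ C := by
  have d1 : HasDerivAt (fun z : ℂ => X (W₀ + z * I)) (deriv X W₀ * I) ((0 : ℝ) : ℂ) := by
    have : HasDerivAt X (deriv X W₀) (W₀ + ((0 : ℝ) : ℂ) * I) := by simpa using a.hasDerivAt
    exact (this.comp ((0 : ℝ) : ℂ) (((hasDerivAt_id _).mul_const I).const_add W₀)).congr_deriv
      (by simp)
  have d2 : HasDerivAt (fun v : ℝ => (X (W₀ + v * I)).im) ((deriv X W₀ * I).im) 0 :=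
    imCLM.hasFDerivAt.comp_hasDerivAt (0 : ℝ) d1.comp_ofReal
  simpa using abs_der d2 (by simpa using h)

/-- the imaginary slope of an obstacle which touches a curve from above -/
theorem im_slope {X : ℂ → ℂ} {W₀ : ℂ} {b : ℝ → ℝ} {b' : ℝ} (a : DifferentiableAt ℂ X W₀)
    (hb : HasDerivAt b b' 0) (e : (X W₀).im = b 0)
    (h : ∀ᶠ u : ℝ in 𝓝 0, b u ≤ (X (W₀ + u)).im) : (deriv X W₀).im = b' := by
  have d1 : HasDerivAt (fun z : ℂ => X (W₀ + z)) (deriv X W₀) ((0 : ℝ) : ℂ) := by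
    have : HasDerivAt X (deriv X W₀) (W₀ + ((0 : ℝ) : ℂ)) := by simpa using a.hasDerivAt
    exact (this.comp ((0 : ℝ) : ℂ) ((hasDerivAt_id _).const_add W₀)).congr_deriv (by simp)
  have d2 : HasDerivAt (fun v : ℝ => (X (W₀ + v)).im) ((deriv X W₀).im) 0 :=
    imCLM.hasFDerivAt.comp_hasDerivAt (0 : ℝ) d1.comp_ofReal
  have m : IsLocalMin (fun v : ℝ => (X (W₀ + v)).im - b v) 0 := by
    filter_upwards [h] with v k
    simp only [ofReal_zero, add_zero, e]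
    linarith
  exact sub_eq_zero.1 (m.hasDerivAt_eq_zero (d2.sub hb))

/-- **(iii)**: an obstacle of the list on the apex of a cone has a bounded real slope -/
theorem obs_slope {W₀ : ℂ} {T a₁ a₂ σ ρ C : ℝ} {n : ℕ} {X : Fin n → ℂ → ℂ}
    {Φ Δ : Fin n → ℂ × ℂ → ℂ} (h : Obs E Y W₀ T a₁ a₂ σ ρ n X Φ Δ) (ok : E.Ok) {a b : ℝ}
    (ha : a ≤ a₁ - ρ) (hb : a₂ + ρ ≤ b) (om : ∀ p ∈ Un V a b E.b₀ φ, p ∈ E.Om) (hV : V ∈ 𝓝 W₀)
    (hφ : ∀ᶠ v : ℝ in 𝓝 0, T - C * |v| ≤ φ (W₀ + v * I)) (c : Fin n) :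
    |(deriv (X c) W₀).re| ≤ C := by
  refine re_slope ((h.one c).an W₀ (mem_ball_self h.σ0)).differentiableAt ?_
  have t : Tendsto (fun v : ℝ => W₀ + v * I) (𝓝 0) (𝓝 W₀) := by
    have : Continuous fun v : ℝ => W₀ + v * I := by fun_prop
    simpa using this.tendsto 0
  filter_upwards [hφ, t.eventually hV, t.eventually (ball_mem_nhds W₀ h.σ0)] with v k1 k2 k3
  rw [(h.top c).1]
  exact k1.trans (obs_ge h ok ha hb om k3 k2 c)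

end Vale.Agent.P097F.L
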