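import Vale.Agent.P097F.L.Win

/-!
# P097F.L: the limit of true leaves
-/

set_option linter.all false

noncomputable section

namespace Vale.Agent.P097F.L

open Set Metric Filter Topology Complex Vale.Agent.P097T Vale.Agent.P097Mo
open Vale.Agent.P097D (Lo)
open Vale.Agent.P097W (Envl)

theorem cl_open (a R t : ℝ) : IsOpen (Cl a R t) :=
  (isOpen_lt continuous_const continuous_re).inter
    ((isOpen_lt continuous_re continuous_const).inter (isOpen_lt continuous_im continuous_const))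

theorem cl_convex (a R t : ℝ) : Convex ℝ (Cl a R t) :=
  (convex_halfSpace_re_gt _).inter ((convex_halfSpace_re_lt _).inter (convex_halfSpace_im_lt _))

theorem leafS : Spec_LEAF := by
  intro X N j a M 𝒰 u s g W₁ W p v hN E Wn w0 w1 w3 tv tp B
  have W0 : 0 < W := by linarith
  have mW := mem_Ud (by linarith) w1 w3
  have hp : ∀ p' > p, ∀ᶠ n in (𝒰 : Filter ℕ), X.pw (u n) (v n) ≤ p' := fun p' h =>
    (tp.eventually (gt_mem_nhds h)).mono fun n k => k.le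
  have p0 : 0 ≤ p := ge_of_tendsto tp ((uv_mem Wn W0 tv).mono fun n k =>
    div_nonneg (X.dat.fam.nn _ k) (Wn.pk n).2.1.le)
  have p1 : p ≤ 8 * W ^ 2 := le_of_tendsto_of_tendsto tp ((tv.pow 2).const_mul 8) (by
    filter_upwards [uv_mem Wn W0 tv, tv.eventually (lt_mem_nhds (show 1 / 2 < W by linarith))]
      with n k1 k2 using pw_le E (by omega) (Wn.pk n) k2.le k1.2)
  have p2 : p ≤ W₁ ^ 3 := by
    have : W ^ 2 ≤ (3 * W₁) ^ 2 := by gcongr
    nlinarith [sq_nonneg W₁]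
  have T0 : 0 < W₁ ^ 3 := by positivity
  obtain ⟨Z, Z₀, D'⟩ := B 1 (2 * W₁ ^ 3) one_pos (by positivity) (by nlinarith [pow_pos T0 4])
  obtain ⟨Y, f⟩ := zl_lim Wn one_pos D'.tr W0 mW tv hp
  have eq : ∀ k R t₁ Z Z₀, Deep X 𝒰 u s g W₁ k R t₁ Z Z₀ → ∀ x ∈ Cl k R t₁, x.im < -p →
      Y x = Z₀ (W, x) := fun k R t₁ Z Z₀ D' x m hx =>
    tendsto_nhds_unique (f.cc x hx _ tendsto_const_nhds)
      ((D'.cc (W, x) ⟨mW, m⟩ _ (f.wl.prodMk_nhds tendsto_const_nhds)).congr'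
        ((zl_tr Wn D'.tr mW tv hp m hx).mono fun n k => k.1.symm))
  have m : (⟨0, -(3 * W₁ ^ 3)⟩ : ℂ) ∈ Cl 0 1 (2 * W₁ ^ 3) ∩ Lo (-p) :=
    ⟨⟨by norm_num, by norm_num, by show -(3 * W₁ ^ 3) < -(2 * W₁ ^ 3); linarith⟩,
      by show -(3 * W₁ ^ 3) < -p; linarith⟩
  have md := (law_leaf Wn.seq.dg (isOpen_ball.prod (cl_open _ _ _)) D'.fam (lo_open _)
    (lo_convex _).isPreconnected f.dY f.mem (W := W) ⟨mW, m.1⟩ m.2
    (mem_of_superset (((cl_open _ _ _).inter (lo_open _)).mem_nhds m)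
      fun x hx => eq _ _ _ _ _ D' x hx.1 hx.2)).2
  exact ⟨p0, p2, Y, ⟨Wn.seq.dg, f.dY, fun x hx => le_of_tendsto_of_tendsto
    ((continuous_im.tendsto _).comp (f.cc x hx _ tendsto_const_nhds)) (tp.const_add x.im)
    ((zl_pt Wn W0 tv hp hx).mono fun n k => k.1), md⟩, eq⟩

end Vale.Agent.P097F.L
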