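import Vale.Agent.P097F.L.Mon
import Vale.Agent.P097Mo.Bridge
import Vale.Agent.P097F.D.Reg
import Vale.Agent.P097F.D.Sg
import Vale.Agent.P097F.D.Om
import Vale.Agent.P097F.D.Up

/-!
# P097F.L: limits of true families are families of model leaves
-/

set_option linter.all false

noncomputable section

namespace Vale.Agent.P097F.L

open Set Metric Filter Topology Complex Vale.Agent.P097D Vale.Agent.P097N Vale.Agent.P097Mo
open Vale.Agent.P097F.D (Law dx vv de sg Rc Mx Lv)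

/-- true families in window units, points are `(W, x)`, the step is `ε * W` -/
structure TF (l : Filter ℕ) (ε : ℕ → ℂ) (θ h : ℕ → ℂ → ℂ) (Y : ℕ → ℂ × ℂ → ℂ)
    (O : Set (ℂ × ℂ)) : Prop where
  op : IsOpen O
  hp : HP l Y O
  law : ∀ p ∈ O, ∀ᶠ j in l, EE (θ j) (h j) (Y j (p.1, p.2 - ε j * p.1)) (Y j p)
    (Y j (p.1, p.2 + ε j * p.1)) = 0

theorem lo_open (T : ℝ) : IsOpen (Lo T) := isOpen_lt continuous_im continuous_const

theorem lo_convex (T : ℝ) : Convex ℝ (Lo T) := convex_halfSpace_im_lt T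

variable {𝒰 : Ultrafilter ℕ} {ε : ℕ → ℂ} {θ h Q : ℕ → ℂ → ℂ} {c : ℕ → ℂ} {U : ℕ → Set ℂ}
  {g : ℂ → ℂ} {Y : ℕ → ℂ × ℂ → ℂ} {A B : ℂ × ℂ → ℂ} {O O' : Set (ℂ × ℂ)}

theorem an_sl {W x : ℂ} (a : AnalyticAt ℂ A (W, x)) : AnalyticAt ℂ (fun x => A (W, x)) x :=
  AnalyticAt.comp (g := A) (f := fun x => (W, x)) a (analyticAt_const.prod analyticAt_id)

/-- a slice of a true family -/
theorem TF.lf {l : Filter ℕ} (F : TF l ε θ h Y O) (aA : AnalyticOnNhd ℂ A O)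
    (mA : MapsTo A O (Lo 0)) (cv : CV l Y A O) {W : ℂ} {P : Set ℂ} (oP : IsOpen P)
    (sub : ∀ x ∈ P, (W, x) ∈ O) :
    Lf l ε θ h W (fun j x => Y j (W, x)) (fun x => A (W, x)) (Lo 0) P := by
  refine ⟨oP, fun x hx => ?_,
    fun x hx => (an_sl (aA _ (sub x hx))).differentiableAt.differentiableWithinAt,
    fun x hx u hu => cv _ (sub x hx) _ (tendsto_const_nhds.prodMk_nhds hu),
    fun x hx => mA (sub x hx), fun x hx => F.law _ (sub x hx)⟩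
  obtain ⟨ρ, ρ0, e⟩ := F.hp _ (sub x hx)
  refine ⟨ρ, ρ0, e.mono fun j k => k.1.comp (f := fun x => (W, x))
    ((differentiableOn_const W).prodMk differentiableOn_id) fun z hz => ?_⟩
  rw [← ball_prod_same]
  exact ⟨mem_ball_self ρ0, hz⟩

/-- the defect of the law is analytic -/
theorem an_law (dg : DifferentiableOn ℂ g (Lo 0)) {p : ℂ × ℂ} (a : AnalyticAt ℂ A p)
    (m : A p ∈ Lo 0) :
    AnalyticAt ℂ (fun p => vv A p ^ 3 * sg (vv A p * g (A p) / 2) - p.1 ^ 3) p := by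
  have av := D.reg_vv_an a
  have ag : AnalyticAt ℂ (fun p => g (A p)) p :=
    AnalyticAt.comp (g := g) (dg.analyticAt ((lo_open 0).mem_nhds m)) a
  exact ((av.pow 3).mul (AnalyticAt.comp (g := sg) (D.Sg.an _) (av.mul ag).div_const)).sub
    (analyticAt_fst.pow 3)

/-- the law propagates over a connected domain -/
theorem fam_of (dg : DifferentiableOn ℂ g (Lo 0)) (hc : IsPreconnected O)
    (aA : AnalyticOnNhd ℂ A O) (mA : MapsTo A O (Lo 0)) {p₀ : ℂ × ℂ} (m : p₀ ∈ O)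
    (e : ∀ᶠ p in 𝓝 p₀, Law g p.1 (A p) (vv A p)) : D.Fam g A O := by
  have := AnalyticOnNhd.eqOn_zero_of_preconnected_of_eventuallyEq_zero (𝕜 := ℂ)
    (fun p hp => an_law dg (aA p hp) (mA hp)) hc m (e.mono fun p hp => sub_eq_zero.2 hp)
  exact ⟨aA, mA, fun p hp => sub_eq_zero.1 (this hp)⟩

/-- **the limit of a true family with a deep normalisation is a family of model leaves** -/
theorem famA (s : Seq 𝒰 ε θ h Q c U g (Lo 0)) (z : NZ g (Lo 0)) (F : TF 𝒰 ε θ h Y O)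
    (hc : IsPreconnected O) (aA : AnalyticOnNhd ℂ A O) (mA : MapsTo A O (Lo 0))
    (cv : CV 𝒰 Y A O) {V P : Set ℂ} (oV : IsOpen V) (nV : V.Nonempty) (oP : IsOpen P)
    (cP : IsPreconnected P) (sub : V ×ˢ P ⊆ O)
    (nr : ∀ W ∈ V, ∀ η : ℝ, 0 < η → ∃ x ∈ P, ‖dx A (W, x) - 1‖ < η ∧ ‖g (A (W, x))‖ < η) :
    D.Fam g A O := by
  obtain ⟨W₀, m₀⟩ := nV
  obtain ⟨x₀, n₀, -⟩ := nr W₀ m₀ 1 one_pos
  refine fam_of s.dg hc aA mA (sub (mk_mem_prod m₀ n₀)) ?_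
  filter_upwards [(oV.prod oP).mem_nhds (mk_mem_prod m₀ n₀)] with p hp
  by_cases W0 : p.1 = 0
  · simp [Law, vv, W0]
  have f := F.lf aA mA cv oP (W := p.1) fun x hx => sub (mk_mem_prod hp.1 hx)
  have N := nrm_of s.op oP s.dg f.dY f.mem z (nr p.1 hp.1)
  obtain ⟨x₁, k1, -, k2, -⟩ := N 1 one_pos
  exact red_of (σ := sg) (continuous_iff_continuousAt.2 fun z => (D.Sg.an z).continuousAt)
    D.Sg.mul s.op oP cP s.dg f.dY f.mem k1 k2
    (model 𝒰 ε θ h Q c U g _ p.1 _ _ P s f cP W0 N) p.2 hp.2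

/-- a continuation of a family is a family -/
theorem famB (dg : DifferentiableOn ℂ g (Lo 0)) (oO : IsOpen O) (F : D.Fam g A O)
    (hc : IsPreconnected O') (aB : AnalyticOnNhd ℂ B O') (mB : MapsTo B O' (Lo 0)) {p₀ : ℂ × ℂ}
    (m : p₀ ∈ O) (m' : p₀ ∈ O') (e : B =ᶠ[𝓝 p₀] A) : D.Fam g B O' := by
  refine fam_of dg hc aB mB m' ?_
  filter_upwards [oO.mem_nhds m, e.eventually_nhds] with p k1 k2
  have k3 : B =ᶠ[𝓝 p] A := k2
  rw [k3.self_of_nhds, D.vv_congr k3]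
  exact F.law p k1

/-- the deep normalisation from a uniform bound on large discs -/
theorem nrm_bd {V P : Set ℂ} (aA : AnalyticOnNhd ℂ A O) (cv : CV 𝒰 Y A O) (sub : V ×ˢ P ⊆ O)
    (H : ∀ W ∈ V, ∀ η : ℝ, 0 < η → ∃ (x : ℂ) (R B : ℝ), 0 < R ∧ B < η * R ∧ ball x (2 * R) ⊆ P ∧
      (∀ z ∈ ball x (2 * R), ∀ᶠ j in (𝒰 : Filter ℕ), ‖Y j (W, z) - z‖ ≤ B) ∧
      ∀ y ∈ closedBall x B, ‖g y‖ < η) :
    ∀ W ∈ V, ∀ η : ℝ, 0 < η → ∃ x ∈ P, ‖dx A (W, x) - 1‖ < η ∧ ‖g (A (W, x))‖ < η := by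
  intro W hW η η0
  obtain ⟨x, R, B, R0, hB, s, e, k⟩ := H W hW η η0
  have m : x ∈ ball x (2 * R) := mem_ball_self (by linarith)
  have b : ∀ z ∈ ball x (2 * R), ‖A (W, z) - z‖ ≤ B := fun z hz =>
    le_of_tendsto ((cv _ (sub (mk_mem_prod hW (s hz))) _ tendsto_const_nhds).sub_const z).norm
      (e z hz)
  refine ⟨x, s m, (deriv_near (Y := fun z => A (W, z)) R0 (fun z hz =>
    (an_sl (aA _ (sub (mk_mem_prod hW (s hz))))).differentiableAt.differentiableWithinAt)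
    b).trans_lt ((div_lt_iff₀ R0).2 hB), k _ (mem_closedBall_iff_norm.2 (b x m))⟩

/-- the cubic form of the law -/
theorem mod_of {W y u : ℂ} (e : Law g W y (W * u)) :
    24 * Sf (W * g y * u / 2) = (W * g y) ^ 3 := by
  have e1 : (W * u) ^ 3 * sg (W * u * g y / 2) = W ^ 3 := e
  have e2 : (W * u * g y / 2) ^ 3 * sg (W * u * g y / 2) = 3 * Sf (W * u * g y / 2) :=
    D.Sg.mul _
  rw [show W * g y * u / 2 = W * u * g y / 2 by ring]
  linear_combination (-8) * e2 + g y ^ 3 * e1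

/-- a leaf which continues a slice of a family satisfies the law -/
theorem law_leaf (dg : DifferentiableOn ℂ g (Lo 0)) (oO : IsOpen O) (F : D.Fam g A O) {W x₀ : ℂ}
    {Z : ℂ → ℂ} {P : Set ℂ} (oP : IsOpen P) (cP : IsPreconnected P)
    (dZ : DifferentiableOn ℂ Z P) (mZ : MapsTo Z P (Lo 0)) (m : (W, x₀) ∈ O) (m' : x₀ ∈ P)
    (e : ∀ᶠ x in 𝓝 x₀, Z x = A (W, x)) :
    (∀ x ∈ P, Law g W (Z x) (W * deriv Z x)) ∧ Mod g Z W P := by
  have aZ := dZ.analyticOnNhd oP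
  have k : ∀ x ∈ P, Law g W (Z x) (W * deriv Z x) := by
    have := AnalyticOnNhd.eqOn_zero_of_preconnected_of_eventuallyEq_zero (𝕜 := ℂ)
      (f := fun x => (W * deriv Z x) ^ 3 * sg (W * deriv Z x * g (Z x) / 2) - W ^ 3)
      (fun x hx => by
        have av : AnalyticAt ℂ (fun x => W * deriv Z x) x := analyticAt_const.mul (aZ x hx).deriv
        have ag : AnalyticAt ℂ (fun x => g (Z x)) x :=
          AnalyticAt.comp (g := g) (dg.analyticAt ((lo_open 0).mem_nhds (mZ hx))) (aZ x hx)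
        exact ((av.pow 3).mul (AnalyticAt.comp (g := sg) (D.Sg.an _) (av.mul ag).div_const)).sub
          analyticAt_const) cP m' (by
        have t : Tendsto (fun x : ℂ => (W, x)) (𝓝 x₀) (𝓝 (W, x₀)) :=
          tendsto_const_nhds.prodMk_nhds tendsto_id
        filter_upwards [t.eventually (oO.mem_nhds m), e.eventually_nhds] with x k1 k2
        have k3 : Z =ᶠ[𝓝 x] fun x => A (W, x) := k2
        have := F.law _ k1
        show _ - _ = 0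
        rw [k3.deriv_eq, k3.self_of_nhds]
        exact sub_eq_zero.2 this)
    exact fun x hx => sub_eq_zero.1 (this hx)
  exact ⟨k, fun x hx => mod_of (k x hx)⟩

/-- **limits of leaves**: `z j` has the step ratio `w j` and agrees with the true family on `R` -/
theorem leaf_lim (dg : DifferentiableOn ℂ g (Lo 0)) (oO : IsOpen O) (F : D.Fam g A O)
    (cv : CV 𝒰 Y A O) {W : ℂ} {w : ℕ → ℂ} (tw : Tendsto w 𝒰 (𝓝 W)) {z : ℕ → ℂ → ℂ}
    {P R : Set ℂ} (oP : IsOpen P) (cP : IsPreconnected P) (H : HP 𝒰 z P) (oR : IsOpen R)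
    (nR : R.Nonempty) (RP : R ⊆ P) (RO : ∀ x ∈ R, (W, x) ∈ O)
    (e : ∀ x ∈ R, ∀ᶠ j in (𝒰 : Filter ℕ), z j x = Y j (w j, x)) :
    ∃ Z, DifferentiableOn ℂ Z P ∧ MapsTo Z P (Lo 0) ∧ CC 𝒰 z Z P ∧ (∀ x ∈ R, Z x = A (W, x)) ∧
      (∀ x ∈ P, Law g W (Z x) (W * deriv Z x)) ∧ Mod g Z W P := by
  have t : ∀ x ∈ R, Tendsto (fun j => z j x) 𝒰 (𝓝 (A (W, x))) := fun x hx =>
    (cv _ (RO x hx) _ (tw.prodMk_nhds tendsto_const_nhds)).congr'
      ((e x hx).mono fun j k => k.symm)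
  obtain ⟨x₀, m₀⟩ := nR
  obtain ⟨Z, aZ, mZ, cZ⟩ := mon 𝒰 oP cP H (RP m₀) (F.lo _ (RO x₀ m₀)) (t x₀ m₀)
  have q : ∀ x ∈ R, Z x = A (W, x) := fun x hx =>
    tendsto_nhds_unique (cZ x (RP hx) _ tendsto_const_nhds) (t x hx)
  exact ⟨Z, aZ.differentiableOn, mZ, cZ, q, law_leaf dg oO F oP cP aZ.differentiableOn mZ
    (RO x₀ m₀) (RP m₀) (mem_of_superset (oR.mem_nhds m₀) q)⟩

/-- the data of block D -/
theorem okA {V : Set ℂ} {α β b₀ b₁ : ℝ} (dg : DifferentiableOn ℂ g (Lo 0)) (F : D.Fam g A O)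
    (oV : IsOpen V) (nz : ∀ W ∈ V, W ≠ 0) (lt : b₀ < b₁) (sub : V ×ˢ Rc α β b₀ b₁ ⊆ O) :
    (D.Dat.mk g A V α β b₀ b₁).Ok := ⟨oV, nz, dg, lt, F.mono sub⟩

/-- a limit leaf on a half plane continues the deep family -/
theorem lvA (E : D.Dat) {W : ℂ} {T : ℝ} {Z : ℂ → ℂ} (m : W ∈ E.U) (lt : E.b₁ < T)
    (dZ : DifferentiableOn ℂ Z (Lo T)) (mZ : MapsTo Z (Lo T) (Lo 0))
    (e : ∀ x ∈ Rc E.α E.β E.b₀ E.b₁, Z x = E.A (W, x)) : Lv E W T Z :=
  ⟨m, lt, dZ.mono fun x hx => hx.2.2.2, fun x hx => mZ hx.2.2.2, e⟩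

end Vale.Agent.P097F.L
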