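import Vale.Agent.P097F.Cm
import Vale.Agent.P097F.L.Lim
import Vale.Agent.P097Mo.Win
import Vale.Agent.P097M.Pos
import Vale.Agent.P097N.Bridge

/-!
# P097F.L: true leaves in window units
-/

set_option linter.all false

noncomputable section

namespace Vale.Agent.P097F.L

open Set Metric Filter Topology Complex Vale.Agent.P097T Vale.Agent.P097Mo
open Vale.Agent.P097D (Lo)
open Vale.Agent.P097N (EE)
open Vale.Agent.P097W (Envl)

variable {X : DD} {a : ℝ → ℝ} {N j : ℕ} {M : ℝ} {𝒰 : Ultrafilter ℕ} {u s : ℕ → ℝ} {g : ℂ → ℂ}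

theorem wy_im (X : DD) (u s : ℝ) (z : ℂ) : (X.wy u s z).im = X.r + X.η u * z.im := by
  simp [DD.wy]

theorem wy_re (X : DD) (u s : ℝ) (z : ℂ) : (X.wy u s z).re = s + X.η u * z.re := by
  simp [DD.wy]

theorem u_lim (Wn : Win X a j M 𝒰 u s g) : Tendsto u 𝒰 (𝓝 0) := by
  have t : Tendsto (fun n => X.ep (u n) * X.r) 𝒰 (𝓝 0) := by
    simpa using (Wn.ep0.mono_left Wn.le).mul_const X.r
  refine squeeze_zero (fun n => (Wn.pk n).1.1.le) (fun n => ?_) t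
  have h := Wn.pk n
  rw [DD.ep, div_mul_eq_mul_div, le_div_iff₀ h.2.1]
  exact mul_le_mul_of_nonneg_left (by linarith [X.dat.fam.low _ h.1, X.dat.fam.sol.pos]) h.1.1.le

theorem η_lim (Wn : Win X a j M 𝒰 u s g) : Tendsto (fun n => X.η (u n)) 𝒰 (𝓝 0) := by
  obtain ⟨C, hC⟩ := X.dat.pw
  refine tendsto_order.2 ⟨fun b hb => Eventually.of_forall fun n => hb.trans (Wn.pk n).2.1,
    fun b hb => ?_⟩
  have : Tendsto (fun n => C * u n) 𝒰 (𝓝 0) := by simpa using (u_lim Wn).const_mul C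
  filter_upwards [this.eventually (gt_mem_nhds (pow_pos hb (X.p + 1)))] with n k
  exact lt_of_pow_lt_pow_left₀ _ hb.le ((hC _ (Wn.pk n).1).trans_lt k)

theorem a_le (E : Envl X.η X.u₀ X.p N a) (hN : 2 ≤ N) {d b : ℝ} (d0 : 0 < d) (b1 : 1 ≤ b) :
    a (b ^ 2 * d) ≤ b * a d := by
  have h := E.dec (b ^ 2 * d) d d0 (le_mul_of_one_le_left d0.le (one_le_pow₀ b1))
  have a0 : 0 ≤ a d := zero_le_one.trans (E.one d)
  refine le_of_pow_le_pow_left₀ (n := N) (by omega) (by positivity) ?_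
  rw [← mul_assoc] at h
  calc _ ≤ a d ^ N * b ^ 2 := le_of_mul_le_mul_right h d0
    _ ≤ a d ^ N * b ^ N := by gcongr
    _ = _ := by ring

theorem pw_le (E : Envl X.η X.u₀ X.p N a) (hN : 2 ≤ N) {u v : ℝ} (P : X.Pk a u) (hv : 1 / 2 ≤ v)
    (m : u * v < X.u₀) : X.pw u v ≤ 8 * v ^ 2 := by
  obtain ⟨m', d0, k⟩ := P
  have u0 := m'.1
  have v0 : 0 < v := by linarith
  have h1 := a_le E hN d0 (b := 2 * v) (by linarith)
  have := E.en ((2 * v) ^ 2 * X.η u) 1 (u * v) (by positivity) le_rfl ⟨by positivity, m⟩ (by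
    rw [one_pow, mul_one]
    calc _ ≤ u * v * (2 * v * a (X.η u)) := by gcongr
      _ = 2 * v ^ 2 * (a (X.η u) * u) := by ring
      _ ≤ 2 * v ^ 2 * (2 * X.η u) := by gcongr
      _ = _ := by ring)
  rw [DD.pw, div_le_iff₀ d0]
  linarith

/-- the true leaf of step ratio `v` in window units -/
def zl (X : DD) (u s v : ℝ) (x : ℂ) : ℂ := X.Yw u s v (v, x)

theorem zl_eq (X : DD) (u s v : ℝ) (x : ℂ) : zl X u s v x =
    (X.Y (u * v) (X.wy u s x, ((u * v : ℝ) : ℂ)) - (s + X.r * I)) / X.η u := by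
  simp only [zl, DD.Yw, ofReal_mul, sub_sub]

theorem zl_fact (X : DD) {u s v : ℝ} (d0 : 0 < X.η u) (m : u * v ∈ Ioo 0 X.u₀) {x : ℂ}
    (h1 : x.im < -X.pw u v) (h2 : -X.r ≤ X.η u * x.im) :
    AnalyticAt ℂ (X.Yw u s v) (v, x) ∧ (zl X u s v x).im < 0 ∧
      (zl X u s v x).im ≤ x.im + X.pw u v ∧
      EE (X.θw u s) (X.hw u s) (zl X u s v (x - X.ep u * v)) (zl X u s v x)
        (zl X u s v (x + X.ep u * v)) = 0 := by
  have dn : (X.η u : ℂ) ≠ 0 := ofReal_ne_zero.2 d0.ne'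
  have k0 : 0 ≤ (X.wy u s x).im := by rw [wy_im]; linarith
  have k1 : (X.wy u s x).im < X.r - X.η (u * v) := by
    rw [DD.pw, ← neg_div, lt_div_iff₀ d0] at h1
    rw [wy_im]
    linarith
  have k2 : X.wy u s x ∈ Strip (X.r - X.η (u * v)) := by
    show |(X.wy u s x).im| < _
    rwa [abs_of_nonneg k0]
  have L := X.dat.fam.leaf _ m
  have im : (zl X u s v x).im = ((X.Y (u * v) (X.wy u s x, ((u * v : ℝ) : ℂ))).im - X.r) / X.η u := by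
    rw [zl_eq, div_ofReal_im]
    simp
  refine ⟨?_, ?_, ?_, ?_⟩
  · have b : AnalyticAt ℂ (fun q : ℂ × ℂ => (X.wy u s q.2, (u : ℂ) * q.1)) (v, x) :=
      (analyticAt_const.add (analyticAt_const.mul analyticAt_snd)).prod
        (analyticAt_const.mul analyticAt_fst)
    have c := X.dat.fam.an _ m _ k2
    rw [ofReal_mul] at c
    exact (((AnalyticAt.comp (g := X.Y (u * v))
      (f := fun q : ℂ × ℂ => (X.wy u s q.2, (u : ℂ) * q.1)) c b).sub analyticAt_const).sub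
      analyticAt_const).div_const
  · rw [im]
    exact div_neg_of_neg_of_pos (sub_neg.2 ((le_abs_self _).trans_lt (L.mem _ k2))) d0
  · have := P097M.pos _ _ _ _ _ _ L (by linarith [X.dat.fam.nn _ m]) _ k0 k1
    rw [sub_im, wy_im] at this
    rw [im, DD.pw, div_le_iff₀ d0, add_mul, div_mul_cancel₀ _ d0.ne']
    linarith
  · have e1 : X.wy u s (x - X.ep u * v) = X.wy u s x - ((u * v : ℝ) : ℂ) := by
      simp only [DD.wy, DD.ep, ofReal_div, ofReal_mul]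
      field_simp
      ring
    have e2 : X.wy u s (x + X.ep u * v) = X.wy u s x + ((u * v : ℝ) : ℂ) := by
      simp only [DD.wy, DD.ep, ofReal_div, ofReal_mul]
      field_simp
      ring
    rw [zl_eq, zl_eq, zl_eq, e1, e2]
    exact ee_win (s + X.r * I) dn ((P097N.Bridge.law_eq ..).symm.trans (L.law _ k2))

variable {v : ℕ → ℝ} {W p : ℝ}

theorem uv_mem (Wn : Win X a j M 𝒰 u s g) (W0 : 0 < W) (tv : Tendsto v 𝒰 (𝓝 W)) :
    ∀ᶠ n in (𝒰 : Filter ℕ), u n * v n ∈ Ioo 0 X.u₀ := by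
  have t : Tendsto (fun n => u n * v n) 𝒰 (𝓝 0) := by simpa using (u_lim Wn).mul tv
  filter_upwards [t.eventually (gt_mem_nhds X.dat.fam.pos), tv.eventually (lt_mem_nhds W0)]
    with n k1 k2 using ⟨mul_pos (Wn.pk n).1.1 k2, k1⟩

/-- the true leaves exhaust the half plane -/
theorem zl_ex (Wn : Win X a j M 𝒰 u s g)
    (hp : ∀ p' > p, ∀ᶠ n in (𝒰 : Filter ℕ), X.pw (u n) (v n) ≤ p') {x : ℂ} (hx : x ∈ Lo (-p)) :
    ∃ ρ > 0, ∀ᶠ n in (𝒰 : Filter ℕ), ∀ z ∈ ball x ρ,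
      z.im < -X.pw (u n) (v n) ∧ -X.r ≤ X.η (u n) * z.im := by
  have hx' : x.im < -p := hx
  set ρ := (-p - x.im) / 2 with hρ
  have ρ0 : 0 < ρ := by linarith
  have t : Tendsto (fun n => X.η (u n) * (x.im - ρ)) 𝒰 (𝓝 0) := by
    simpa using (η_lim Wn).mul_const (x.im - ρ)
  refine ⟨ρ, ρ0, ?_⟩
  filter_upwards [hp (p + ρ) (by linarith),
    t.eventually (lt_mem_nhds (neg_lt_zero.2 X.dat.cur.rpos))] with n k1 k2 z hz
  have := abs_lt.1 ((abs_im_le_norm _).trans_lt (mem_ball_iff_norm.1 hz))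
  rw [sub_im] at this
  exact ⟨by linarith [this.2], k2.le.trans
    (mul_le_mul_of_nonneg_left (by linarith [this.1]) (Wn.pk n).2.1.le)⟩

theorem zl_hp (Wn : Win X a j M 𝒰 u s g) (W0 : 0 < W) (tv : Tendsto v 𝒰 (𝓝 W))
    (hp : ∀ p' > p, ∀ᶠ n in (𝒰 : Filter ℕ), X.pw (u n) (v n) ≤ p') :
    HP 𝒰 (fun n => zl X (u n) (s n) (v n)) (Lo (-p)) := by
  intro x hx
  obtain ⟨ρ, ρ0, e⟩ := zl_ex Wn hp hx
  refine ⟨ρ, ρ0, ?_⟩
  filter_upwards [e, uv_mem Wn W0 tv] with n k m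
  exact ⟨fun z hz => (an_sl (zl_fact X (Wn.pk n).2.1 m (k z hz).1
    (k z hz).2).1).differentiableAt.differentiableWithinAt,
    fun z hz => (zl_fact X (Wn.pk n).2.1 m (k z hz).1 (k z hz).2).2.1⟩

theorem zl_pt (Wn : Win X a j M 𝒰 u s g) (W0 : 0 < W) (tv : Tendsto v 𝒰 (𝓝 W))
    (hp : ∀ p' > p, ∀ᶠ n in (𝒰 : Filter ℕ), X.pw (u n) (v n) ≤ p') {x : ℂ} (hx : x ∈ Lo (-p)) :
    ∀ᶠ n in (𝒰 : Filter ℕ), (zl X (u n) (s n) (v n) x).im ≤ x.im + X.pw (u n) (v n) ∧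
      EE (X.θw (u n) (s n)) (X.hw (u n) (s n)) (zl X (u n) (s n) (v n) (x - X.ep (u n) * v n))
        (zl X (u n) (s n) (v n) x) (zl X (u n) (s n) (v n) (x + X.ep (u n) * v n)) = 0 := by
  obtain ⟨ρ, ρ0, e⟩ := zl_ex Wn hp hx
  filter_upwards [e, uv_mem Wn W0 tv] with n k m
  exact (zl_fact X (Wn.pk n).2.1 m (k x (mem_ball_self ρ0)).1 (k x (mem_ball_self ρ0)).2).2.2

/-- the clause `tr` of `Deep` -/
def Trk (X : DD) (𝒰 : Ultrafilter ℕ) (u s : ℕ → ℝ) (W₁ a R t₁ : ℝ) (Z : ℕ → ℂ × ℂ → ℂ) : Prop :=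
  ∀ᶠ n in (𝒰 : Filter ℕ),
    AnalyticOnNhd ℂ (Z n) (Ud W₁ ×ˢ Bx a R t₁ (X.r / (2 * X.η (u n)))) ∧
    (∀ q ∈ Ud W₁ ×ˢ Bx a R t₁ (X.r / (2 * X.η (u n))), ‖Z n q - q.2‖ ≤ 1) ∧
    ∀ v : ℝ, (v : ℂ) ∈ Ud W₁ → ∀ x ∈ Bx a R t₁ (X.r / (2 * X.η (u n))),
      x.im < -X.pw (u n) v → Z n =ᶠ[𝓝 ((v : ℂ), x)] X.Yw (u n) (s n) v

/-- the boxes exhaust the column -/
theorem bx_ex (Wn : Win X a j M 𝒰 u s g) (b R t₁ t : ℝ) : ∀ᶠ n in (𝒰 : Filter ℕ),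
    ∀ x ∈ Cl b R t₁, -t < x.im → x ∈ Bx b R t₁ (X.r / (2 * X.η (u n))) := by
  have h : Tendsto (fun n => t * (2 * X.η (u n))) 𝒰 (𝓝 0) := by
    simpa using ((η_lim Wn).const_mul 2).const_mul t
  filter_upwards [h.eventually (gt_mem_nhds X.dat.cur.rpos)] with n k x hx h1
  have : t < X.r / (2 * X.η (u n)) := by rwa [lt_div_iff₀ (by linarith [(Wn.pk n).2.1])]
  exact ⟨hx.1, hx.2.1, by linarith, hx.2.2⟩

/-- the true leaves agree with the deep charts -/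
theorem zl_tr (Wn : Win X a j M 𝒰 u s g) {W₁ b R t₁ : ℝ} {Z : ℕ → ℂ × ℂ → ℂ}
    (T : Trk X 𝒰 u s W₁ b R t₁ Z) (mW : (W : ℂ) ∈ Ud W₁) (tv : Tendsto v 𝒰 (𝓝 W))
    (hp : ∀ p' > p, ∀ᶠ n in (𝒰 : Filter ℕ), X.pw (u n) (v n) ≤ p') {x : ℂ} (m : x ∈ Cl b R t₁)
    (hx : x.im < -p) : ∀ᶠ n in (𝒰 : Filter ℕ), zl X (u n) (s n) (v n) x = Z n (v n, x) ∧
      ‖zl X (u n) (s n) (v n) x - x‖ ≤ 1 := by
  have tc : Tendsto (fun n => (v n : ℂ)) 𝒰 (𝓝 W) := (continuous_ofReal.tendsto W).comp tv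
  obtain ⟨p', p1, p2⟩ := exists_between (show p < -x.im by linarith)
  filter_upwards [T, tc.eventually (isOpen_ball.mem_nhds mW), hp p' p1,
    bx_ex Wn b R t₁ (-x.im + 1)] with n k k1 k2 k3
  have mx := k3 x m (by linarith)
  have e : Z n (v n, x) = zl X (u n) (s n) (v n) x :=
    (k.2.2 (v n) k1 x mx (by linarith)).self_of_nhds
  exact ⟨e.symm, e ▸ k.2.1 (v n, x) ⟨k1, mx⟩⟩

/-- the limit of the true leaves -/
theorem zl_lim (Wn : Win X a j M 𝒰 u s g) {W₁ b R t₁ : ℝ} {Z : ℕ → ℂ × ℂ → ℂ} (R0 : 0 < R)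
    (T : Trk X 𝒰 u s W₁ b R t₁ Z) (W0 : 0 < W) (mW : (W : ℂ) ∈ Ud W₁) (tv : Tendsto v 𝒰 (𝓝 W))
    (hp : ∀ p' > p, ∀ᶠ n in (𝒰 : Filter ℕ), X.pw (u n) (v n) ≤ p') :
    ∃ Y, Lfv 𝒰 (fun n => (X.ep (u n) : ℂ)) (fun n => X.θw (u n) (s n)) (fun n => X.hw (u n) (s n))
      (fun n => v n) W (fun n => zl X (u n) (s n) (v n)) Y (Lo 0) (Lo (-p)) := by
  set t := max (max t₁ p) 1 + 1 with ht
  have t1 : t₁ < t := by linarith [le_max_left (max t₁ p) 1, le_max_left t₁ p]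
  have t2 : p < t := by linarith [le_max_left (max t₁ p) 1, le_max_right t₁ p]
  have t3 : 1 < t := by linarith [le_max_right (max t₁ p) 1]
  have H := zl_hp Wn W0 tv hp
  have m1 : (⟨b, -t⟩ : ℂ).im < -p := neg_lt_neg t2
  obtain ⟨Y, aY, mY, cY⟩ := mon' 𝒰 (lo_open _) (lo_convex _).isPreconnected H
    (p₀ := (⟨b, -t⟩ : ℂ)) m1 (x := ⟨b, -t⟩) (B := 1) (by show -t + 1 < 0; linarith)
    ((zl_tr Wn T mW tv hp ⟨by show b - R < b; linarith, by show b < b + R; linarith,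
      neg_lt_neg t1⟩ m1).mono fun n k => k.2)
  exact ⟨Y, lo_open _, (continuous_ofReal.tendsto W).comp tv, fun x hx => by
    obtain ⟨ρ, ρ0, e⟩ := H x hx
    exact ⟨ρ, ρ0, e.mono fun n k => k.1⟩, aY.differentiableOn, cY, mY,
    fun x hx => (zl_pt Wn W0 tv hp hx).mono fun n k => k.2⟩

end Vale.Agent.P097F.L
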